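import Vale.Agent.P346.Final

namespace Vale.Agent.Results.P346.Tight

universe u

/-- `s_K(n) = n ^ Θ(√n)`, with constants independent of the field `K`. -/
theorem result : ∃ c C : ℝ, 0 < c ∧ ∃ n₀ : ℕ,
    ∀ (K : Type u) [Field K] (n : ℕ) [NeZero n], n₀ ≤ n →
      (n : ℝ) ^ (c * Real.sqrt n) ≤ (Vale.Agent.P346.s K n : ℝ) ∧
      (Vale.Agent.P346.s K n : ℝ) ≤ (n : ℝ) ^ (C * Real.sqrt n) :=
  Vale.Agent.P346.main

end Vale.Agent.Results.P346.Tight
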